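import Vale.Agent.P011N.Cl.MV.Match
import Vale.Agent.P011N.Cl.TC.Gen
import Vale.Agent.P011N.Cl.LH.Main

/-!
The definite places, and the determinant of the action on the first factor.
-/

namespace Vale.Agent.P011N.Cl.AX

open Vale.Agent.P011.MPQ Vale.Agent.P011.D4 Vale.Agent.P011.D4.Oct Vale.Agent.P011.E6 Equiv Matrix
open Vale.Agent.P011.E6O Vale.Agent.P011.E6.Alb MV
open scoped ComplexOrder Kronecker

theorem tr_pos {A B : RM.MC} (hA : A.PosDef) (hB : B.PosDef) (Y : RM.MC) :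
    0 ≤ (Y * A * Yᴴ * B).trace ∧ ((Y * A * Yᴴ * B).trace = 0 → Y = 0) := by
  have h1 := hB.kronecker hA.transpose
  have h2 : (Y * A * Yᴴ * B).trace = star (fun p : Fin 3 × Fin 3 => Y p.1 p.2) ⬝ᵥ
      (B ⊗ₖ Aᵀ) *ᵥ fun p : Fin 3 × Fin 3 => Y p.1 p.2 := by
    simp only [trace_fin_three, Matrix.mul_apply, dotProduct, mulVec, Fintype.sum_prod_type,
      Fin.sum_univ_three, kroneckerMap_apply, transpose_apply, conjTranspose_apply, Pi.star_apply]
    ring
  rw [h2]
  refine ⟨h1.posSemidef.dotProduct_mulVec_nonneg _, fun h => by_contra fun h3 => ?_⟩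
  exact (h1.dotProduct_mulVec_pos fun k => h3 (Matrix.ext fun i j => congrFun k (i, j))).ne' h

variable {F : Type} [Field F] [CharZero F] {γ γ' : Gl F} {ε κ : Bool} {a b c : M3 F}
  {l : Fin 3 → F} {m : F}

theorem tnf_gl {φ : Perm (W1 F)} (h : TNF γ ε κ a b c l m φ) (hs : Semi γ' φ) : Semi γ φ := by
  obtain ⟨φ', h1, h2⟩ := h.td.exists_tnf h.ne' γ ε κ
  have h3 : ⇑φ = φ' := by
    funext ⟨x, y⟩
    obtain ⟨X, Y, Z, rfl⟩ := exists_mkT x
    obtain ⟨X', Y', Z', rfl⟩ := exists_mkT y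
    rw [show ((mkT X Y Z, mkT X' Y' Z') : W1 F) = (mkT X Y Z, 0) + (0, mkT X' Y' Z') by simp,
      hs.add, h2.semi.add, h.fst, h.snd, h1.fst, h1.snd]
  exact h3 ▸ h2.semi

variable {φ : W1 F → W1 F}

omit [CharZero F] in
theorem tnf_det2 {γ : F → F} (h : TNF γ ε κ a b c l m φ) :
    (l 2 • c).det = l 0 * l 1 * l 2 * a.det := by
  rw [det_smul, Fintype.card_fin]
  linear_combination l 2 * h.r2

/-- The invariant of two triples. -/
def dd (ε : Bool) (x : Fin 3 → J1 F) (y : Fin 3 → W1 F) : F :=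
  if ε then (Matrix.of fun i j => tf (x i) (y j).2 : M3 F).det else -cub (∑ i, cross (x i) (y i).1)

theorem dd_std (ε : Bool) (N : M3 F) :
    dd ε (fun i => pP (Pi.single i 1)) (fun i => inj ε (pQ (N *ᵥ Pi.single i 1))) = N.det := by
  cases ε
  · simp only [dd, inj, Bool.false_eq_true, if_false, pP, pQ, cross_mkT, Fin.sum_univ_three,
      mkT_add, cub_mkT]
    simp [det_fin_three, vecMulVec_mul_vecMulVec, vecMulVec_apply]
    ring
  · simp only [dd, inj, if_true, Cl.tf_pP_pQ]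
    congr 1
    ext i j
    simp

theorem dd_tnf (h : TNF γ ε true a b c l m φ) (h0 : a 0 0 = 1) (hc : a * hz = hz * a) :
    dd ε (fun i => pP (Pi.single i 1)) (fun i => φ (pP (Pi.single i 1), 0)) =
      l 0 * l 1 * l 2 * a.det := by
  simp only [tnf_pP h h0 (block_of_comm hc).1 (block_of_comm hc).2.1, map_single', dd_std,
    tnf_det2 h]

theorem dd_S6 {g : Perm (W1 F)} (hg : g ∈ S6 (1 : Fˣ) 1 1) (ε : Bool) (x : Fin 3 → J1 F)
    (y : Fin 3 → W1 F) : dd ε (fun i => (g (x i, 0)).1) (fun i => g (y i)) = dd ε x y := by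
  have h := sim6_one.2 (mem_S6.1 hg)
  cases ε
  · have h1 : ∀ v : W1 F, (g v).1 = fs6 g false v.1 := fun v => by rw [h.apply]; rfl
    simp only [dd, Bool.false_eq_true, if_false, h1, h.pr.cross_eq, div_one, one_smul,
      ← h.pr.s2.sum, h.pr.c2, one_mul, AlgEquiv.one_apply]
  · simp only [dd, if_true, tf_S6 hg]

theorem pf_dd {U : Type} [AddCommGroup U] [Module F U] (ε : Bool) {x : U → Fin 3 → J1 F}
    {y : U → Fin 3 → W1 F} (hx : ∀ i, PM F fun t => x t i) (hy : ∀ i, PM F fun t => y t i) :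
    (fun t => dd ε (x t) (y t)) ∈ PF F U := by
  cases ε
  · simpa [dd] using PF.sub (PF.const (0 : F)) (PM.acub (PM.sum Finset.univ fun i _ =>
      PM.bilin (LinearMap.mk₂ F cross cross_add_left cross_smul_left cross_add_right
        fun t x y => cross_smul_right t x y) (hx i) (hy i).fst))
  · exact pf_det (PM.pi fun i => PM.pi fun j => PF.pm ((hx i).atf (hy j).snd))

end Vale.Agent.P011N.Cl.AX
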