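import Vale.Agent.P011N.Cl.AX.A

/-!
The anisotropic outer forms are compact at a real place.
-/

namespace Vale.Agent.P011N.Cl.AX

open Vale.Agent.P011.MPQ Vale.Agent.P011.D4 Vale.Agent.P011.D4.Oct Vale.Agent.P011.E6 Equiv Matrix
open Vale.Agent.P011.E6O Vale.Agent.P011.E6.Alb MV
open scoped ComplexOrder

variable {F : Type} [Field F] [NumberField F] {Γ : Subgroup (Gl F)} {r σ θ s : Gl F}
  {d q e h₁ h₂ ν : F} {u G₁ G₂ T : M3 F} {Φ : Subgroup (Perm (W1 F))} {φ₀ ψ : Perm (W1 F)}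
  {w : F →+* ℂ}

/-- If the form on the first factor is indefinite at all real places, the group is isotropic. -/
theorem not_ani (h : OSet Γ r σ θ d q e u) (hΦ : Dat6 Γ Φ) (hL : Lv3 Φ d)
    (H : ∀ w, Rl Γ w → ∃ w₀ : F →+* ℂ, (∀ x, Fx Γ x → w₀ x = w x) ∧ ∃ φ ∈ Φ,
      ∃ (γ : Gl F) (ε : Bool) (ν₁ ν₂ m : F), Sim6 γ ε ν₁ ν₂ m φ ∧ γ d = -d ∧
        (∀ x, w₀ (γ x) = star (w₀ x)) ∧ (w₀ (dd ε (fun i => pP (Pi.single i 1))
          (fun i => φ (pP (Pi.single i 1), 0)) / if ε then ν₂ else ν₁)).re < 0) :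
    ¬ Ani (Pts (S6 1 1 1) Φ) := fun hA => by
  obtain ⟨T, ψ, k1, t0, t1, k2, -, k4⟩ := n0 nfStmt hΦ stb_le (lv3_stb hL)
  obtain ⟨_, _, _, s0⟩ := k1.sim
  have c0 := hΦ.tr s0
  obtain ⟨a, a1, a2, -, a4, a5, a6⟩ := exists_anti h c0 k4 (grOn_tr s0 k2 hL.2)
  have a7 : Fx Γ a.det := os_fx h
    (fun γ hγ => by simp only [det_fin_three, map_add, map_sub, map_mul, a5 _ _ γ hγ])
    (by simp only [det_fin_three, map_add, map_sub, map_mul, a6]; ring)
  have a8 : ∀ w, Rl Γ w → (w a.det).re < 0 := fun w hw => by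
    obtain ⟨w₀, l1, φ, l2, γ, ε, ν₁, ν₂, m, l3, l4, l5, l6⟩ := H w hw
    have l7 := hL.2 φ l2 γ l3.semi l4
    obtain ⟨a', b1, b2, b3, b4⟩ := exists_act nfStmt l3 l7
    obtain ⟨b, c, l, b5, b6⟩ := tnf_of_act nfStmt l3 l7 b4 b1
    rw [dd_tnf b5 b2 b3, ← b6, mul_div_cancel_left₀ _
      (mul_ne_zero (mul_ne_zero (b5.ne 0) (b5.ne 1)) (b5.ne 2))] at l6
    have e : ψ.permCongr (ψ.symm.permCongr φ) = φ := ψ.permCongr.apply_symm_apply φ
    have m0 := det_map_ne k1.det γ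
    obtain ⟨t, -, m1⟩ := (a4 _ (symm_mem_tr.2 l2) γ ((MV.semi_congr s0).1 (e.symm ▸ l3.semi))
      l4).unique (ActA.tr k1.act k1.det (e.symm ▸ b4)) a1 (by simp [k1.det, b1, m0])
    have m2 : a' = t • (T * a * (T.map γ)ᵀ) := by
      rw [← Matrix.smul_mul, ← Matrix.mul_smul, ← m1, if_pos rfl]
      simp only [Matrix.mul_assoc, m3_mul_inv' k1.det, ← transpose_mul, m3_mul_inv m0,
        transpose_one, Matrix.mul_one]
    have m3 := congrFun (congrFun m2 0) 0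
    simp only [b2, Matrix.smul_apply, Matrix.mul_apply, Fin.sum_univ_three, transpose_apply,
      map_apply, t0, a2, block_of_comm t1, map_one, map_zero, zero_mul, mul_zero, add_zero, mul_one,
      smul_eq_mul] at m3
    rw [m2, ← m3, one_smul, det_mul, det_mul, det_transpose, m3_det_map, map_mul, map_mul, l5,
      l1 _ a7, hw.eq a7, mul_right_comm, Complex.star_def, Complex.mul_conj, ← Complex.ofReal_mul,
      Complex.ofReal_re] at l6
    exact neg_of_mul_neg_right l6 (Complex.normSq_nonneg _)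
  obtain ⟨v, v0, v1, v2⟩ := LH.hiStmt F (stb Γ d) θ (fun x hx => ⟨os_fxθ h hx, os_θθ h x⟩)
    ⟨d, fun _ k => k.2, fun k => os_ne h (k.symm.trans h.θd)⟩ a a5
    (Matrix.ext fun i j => (a6 i j).symm) fun w hw k => by
      have l1 : Rl Γ w := fun x hx => Complex.conj_eq_iff_im.1 (by
        simpa [hx θ (os_θ h)] using (hw x (hx.mono stb_le)).symm)
      have l2 := a8 w l1
      rw [LH.def_id, RM.def_iff (herm_map fun i j => by rw [← a6, hw _ (a5 _ _)])] at k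
      rcases k with k | k
      · exact lt_asymm l2 (m3_det_map w a ▸ RM.det_re_pos k)
      · have l3 := k.diag_pos (i := 0)
        rw [Matrix.neg_apply, map_apply, a2, map_one, neg_pos] at l3
        exact lt_asymm l3 zero_lt_one
  set y : Fin 3 → F := a *ᵥ fun i => θ (v i) with hy
  have y1 : ∀ γ ∈ stb Γ d, (d • vecMulVec y v).map γ = d • vecMulVec y v := fun γ hγ => by
    ext i j
    simp only [hy, map_apply, Matrix.smul_apply, vecMulVec_apply, smul_eq_mul, mulVec, dotProduct,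
      Fin.sum_univ_three, map_mul, map_add, a5 _ _ γ hγ, v1 _ γ hγ, os_fxθ h (v1 _) γ hγ,
      (mem_stb.1 hγ).2]
  have y2 : a * -((d • vecMulVec y v).map θ)ᵀ = d • vecMulVec y v * a := by
    ext i j
    simp only [hy, map_apply, Matrix.smul_apply, vecMulVec_apply, smul_eq_mul, mulVec, dotProduct,
      Fin.sum_univ_three, map_mul, map_add, a6, os_θθ h, h.θd, Matrix.mul_apply, Matrix.neg_apply,
      transpose_apply]
    ring
  have y3 : d • vecMulVec y v * d • vecMulVec y v = 0 := by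
    simp [vecMulVec_mul_vecMulVec, v2]
  refine not_ani_of_nilp c0.ov (slL_mem (δ := d • vecMulVec y v) (by simp [dotProduct_comm y, v2]))
    (by rw [pow_succ, sq, slL_sq y3, zero_mul]) (fun k => ?_) (fun φ hφ x => ?_)
    ((uiso_tr6 s0 Φ).symm.ani hA)
  · have k1 := eq_of_slA (δ := d • vecMulVec y v) (δ' := 0) fun x => by
      rw [← slL_apply, k, ← slL_apply]
      simp [slL]
    rw [smul_eq_zero, vecMulVec_eq_zero] at k1
    refine v0 (((k1.resolve_left h.d0).resolve_left fun k2 => v0 (funext fun i => ?_)))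
    exact (map_eq_zero θ).1 (congrFun (Matrix.eq_zero_of_mulVec_eq_zero a1 k2) i)
  · obtain ⟨γ, l1, l2⟩ := c0.ov.semi φ hφ
    rw [slL_apply, slL_apply]
    rcases os_pm h l1 with l3 | l3
    · rw [(k4 φ hφ γ ⟨l1, l3⟩ l2).one, y1 γ ⟨l1, l3⟩]
    · rw [a4 φ hφ γ l2 l3, if_pos rfl, show (d • vecMulVec y v).map γ = (d • vecMulVec y v).map θ
        from Matrix.ext fun i j => os_act h l1 l3 fun δ hδ => congrFun (congrFun (y1 δ hδ) i) j,
        y2, Matrix.mul_assoc, m3_mul_inv a1, Matrix.mul_one]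

theorem pos_diag (hS : Std Γ d h₁ h₂ Φ) (hw : Rl Γ w) (h2 : 0 < (w h₂).re) :
    ((diagonal ![1, h₁, h₂] : M3 F).map w).PosDef := by
  rw [diagonal_map (map_zero w), posDef_diagonal_iff]
  intro i
  fin_cases i
  · simp
  · exact Complex.pos_iff.2 ⟨hS.pos w hw, (hw _ hS.f1).symm⟩
  · exact Complex.pos_iff.2 ⟨h2, (hw _ hS.f2).symm⟩

/-- The form is anisotropic. -/
theorem compact1 (hm : Hm s h₁ h₂ ν G₁ G₂ φ₀) (hS : Std Γ d h₁ h₂ Φ) (hs : s ∈ Γ)
    (hw : ∀ x, w (s x) = star (w x)) (p1 : (((w ν).re : ℂ) • G₁.map w).PosDef)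
    (p2 : (((w ν).re : ℂ) • G₂.map w).PosDef) (x : J1 F) (hx : hq φ₀ x x = 0) : x = 0 := by
  obtain ⟨-, -, k3, k4, k5⟩ := hm.pos hS hs hw
  have k2 := rl_of hs hw
  have k6 := hS.pos w k2
  have k7 : 0 < (w h₂).re := by
    have l1 := RM.det_re_pos p1
    rw [det_smul, m3_det_map, hm.d1, map_mul, map_mul, k4, k2.eq hS.f1, k2.eq hS.f2,
      Fintype.card_fin] at l1
    norm_cast at l1
    have l2 : 0 < (w ν).re ^ 4 * (w h₁).re := by positivity
    exact (mul_pos_iff_of_pos_left l2).1 (by linarith)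
  have p3 := pos_diag hS k2 k7
  have d0 := mul_ne_zero (pow_ne_zero 2 hm.ne) (pow_ne_zero 3 hS.n1)
  rw [← hm.d2] at d0
  have d1 := left_ne_zero_of_mul d0
  have d2 := right_ne_zero_of_mul d0
  have d3 : ((w ν).re : ℂ) ≠ 0 := Complex.ofReal_ne_zero.2 k5
  have d4 : ∀ {X : M3 F}, X.det ≠ 0 → (X.map w).det ≠ 0 := fun k => by
    rw [m3_det_map]
    exact (_root_.map_ne_zero w).2 k
  obtain ⟨X, Y, Z, rfl⟩ := exists_mkT x
  obtain ⟨x1, x2⟩ := tr_pos p1 p3.inv (X.map w)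
  obtain ⟨z1, z2⟩ := tr_pos p3 p2.transpose (Z.map w)
  obtain ⟨y1, y2⟩ := tr_pos p2.transpose.inv p1.inv (Y.map w)
  have e1 : ∀ A : M3 F, w A.trace = (A.map w).trace := fun A => by simp [trace_fin_three]
  have e2 : ∀ A : M3 F, ((A.map s)ᵀ).map w = (A.map w)ᴴ := fun A =>
    Matrix.ext fun i j => hw _
  have e3 := congrArg (fun t => ((w ν).re : ℂ) * w t) hx
  simp only [hm.val, map_add, map_mul, map_inv₀, e1, Matrix.map_mul, e2, m3_map_inv w hS.det,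
    m3_map_inv w d1, m3_map_inv w (a := G₂ᵀ) (by simpa using d2), map_zero, mul_zero,
    transpose_map] at e3
  rw [transpose_smul, m3_inv_smul d3 (by simpa using d4 d2), m3_inv_smul d3 (d4 d1)] at y1 y2
  rw [transpose_smul] at z1 z2
  simp only [Matrix.mul_smul, Matrix.smul_mul, trace_smul, smul_eq_mul] at x1 x2 y1 y2 z1 z2
  rw [k4, k2.eq hS.f1, Complex.ofReal_re] at e3
  have q1 : (0 : ℂ) < (((w h₁).re : ℂ))⁻¹ := by exact_mod_cast inv_pos.2 k6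
  have q2 : (0 : ℂ) < ((w ν).re : ℂ) ^ 4 * (w h₁).re := by
    exact_mod_cast (by positivity : 0 < (w ν).re ^ 4 * (w h₁).re)
  obtain ⟨f1, f2⟩ := (add_eq_zero_iff_of_nonneg (add_nonneg x1 (mul_nonneg q1.le z1))
    (mul_nonneg q2.le y1)).1 (by rw [← e3]; field_simp)
  obtain ⟨f3, f4⟩ := (add_eq_zero_iff_of_nonneg x1 (mul_nonneg q1.le z1)).1 f1
  have g : ∀ {A : M3 F}, A.map w = 0 → A = 0 := fun k =>
    Matrix.ext fun i j => (map_eq_zero w).1 (congrFun (congrFun k i) j)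
  exact mkT_eq_zero.2 ⟨g (x2 f3), g (y2 ((mul_eq_zero.1 f2).resolve_left q2.ne')),
    g (z2 ((mul_eq_zero.1 f4).resolve_left q1.ne'))⟩

/-- The form on the first factor is definite. -/
theorem compact2 (h : OSet Γ r σ θ d q e u) (hΦ : Dat6 Γ Φ) {ν₁ ν₂ m' : F}
    (s0 : Sim6 id false ν₁ ν₂ m' ψ) (hT : T.det ≠ 0) (hψ : ActA id false T ψ)
    (hS : Std Γ d h₁ h₂ (tr ψ Φ)) (hw : ∀ x, w (θ x) = star (w x)) (h2 : 0 < (w h₂).re)
    {φ : Perm (W1 F)} (hφ : φ ∈ Φ) {a b c : M3 F} {l : Fin 3 → F} {m : F}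
    (hn : TNF θ false true a b c l m φ) : Def w a⁻¹ := by
  obtain ⟨γ, -, k1⟩ := hΦ.ov.semi φ hφ
  have k2 := tnf_gl hn k1
  have e : ψ.permCongr (ψ.symm.permCongr φ) = φ := ψ.permCongr.apply_symm_apply φ
  have m0 := det_map_ne hT θ
  obtain ⟨t, t0, m1⟩ := (hS.anti _ (symm_mem_tr.2 hφ) θ ((MV.semi_congr s0).1 (e.symm ▸ k2))
    h.θd).unique (ActA.tr hψ hT (e.symm ▸ hn.slA k2)) hS.det (by simp [hT, hn.da, m0])
  have m2 : a⁻¹ = t⁻¹ • ((T.map θ)⁻¹ᵀ * (diagonal ![1, h₁, h₂])⁻¹ * (T.map θ)⁻¹.map θ) := by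
    rw [← Matrix.smul_mul, ← Matrix.mul_smul, ← m3_inv_smul t0 hS.det, ← m1, if_pos rfl,
      m3_map_inv θ m0, ← map_mul_gl, h.θ2]
    simp only [Matrix.mul_inv_rev, inv_tr, m3_inv_inv m0, m3_inv_inv hT, ← Matrix.mul_assoc,
      ← transpose_mul, m3_mul_inv m0, transpose_one, Matrix.one_mul]
    exact (Matrix.mul_nonsing_inv_cancel_right T _ hT.isUnit).symm
  have p := (pos_diag hS (rl_of (os_θ h) hw) h2).inv
  rw [m2, def_smul (inv_ne_zero t0), def_cong hw (by simp [m0]), LH.def_id, m3_map_inv w hS.det]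
  exact (RM.def_iff p.1).2 (.inl p)

theorem dd_fam {n : ℕ} (N : Fin n → M3 F) (ε : Bool) {φ : W1 F → W1 F} {γ : Gl F} (hs : Semi γ φ)
    (w : F →+* ℂ) : ∃ g : (Fin n → ℂ) × (Fin n → ℂ) → ℂ, Continuous g ∧ ∀ t : Fin n → F,
      w (dd ε (gx 1 (∑ i, t i • N i)) fun j => φ (gx 1 (∑ i, t i • N i) j, 0)) =
        g (fun i => w (t i), fun i => w (γ (t i))) := by
  have k : ∀ {V : Type} [AddCommGroup V] [Module F V] (x : V) (y : Fin n → V),
      (PM F fun t : (Fin n → F) × (Fin n → F) => x + ∑ i, t.1 i • y i) ∧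
        PM F fun t : (Fin n → F) × (Fin n → F) => x + ∑ i, t.2 i • y i := fun x y =>
    ⟨(PM.const x).add (PM.sum _ fun i _ => PM.smul (PM.id.fst.proj i).pf (PM.const _)),
      (PM.const x).add (PM.sum _ fun i _ => PM.smul (PM.id.snd.proj i).pf (PM.const _))⟩
  obtain ⟨g, k1, k2⟩ := pf_cont w (pf_dd ε
    (fun j => (k (pP ((1 : M3 F).col j)) fun i => pR ((N i).col j)).1)
    fun j => (k (φ (pP ((1 : M3 F).col j), 0)) fun i => φ (pR ((N i).col j), 0)).2)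
  refine ⟨g, k1, fun t => Eq.trans ?_ (k2 (t, fun i => γ (t i)))⟩
  have e : ∀ j, gx 1 (∑ i, t i • N i) j = pP ((1 : M3 F).col j) + ∑ i, t i • pR ((N i).col j) :=
    fun j => by
      simp only [gx, pR]
      congr 1
      refine ext_T ?_ ?_ ?_ <;> simp [map_sum]
      ext i k
      simp [Matrix.sum_apply, vecMulVec_apply, Finset.sum_mul, mul_assoc]
  congr 2
  · exact funext e
  · funext j
    simp only [e, ← hs.smul, ← hs.sum, ← hs.add, Prod.smul_mk, smul_zero, ← prod_mk_sum,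
      Finset.sum_const_zero, Prod.mk_add_mk, add_zero]

/-- (AUX) -/
theorem auxStmt : AuxStmt := by
  intro F _ _ Γ r σ θ d q e u Φ h hc hL _ hA
  obtain ⟨ψ, T, h₁, h₂, ⟨_, _, m₀, s0⟩, t1, t2, c1, hS⟩ := exists_std h hc hL
  have hA1 := (uiso_tr6 s0 Φ).symm.ani hA
  obtain ⟨φ₀, h0, ν, G₁, G₂, hm⟩ := exists_hm h c1 hS
  obtain ⟨_, _, k0⟩ := hm.sim
  by_contra hn
  rw [Compact, not_or] at hn
  by_cases hw : ∃ w, Rl Γ w
  swap
  · exact not_ani h c1.dat (hS.lv3 c1.dat) (fun w k => absurd ⟨w, k⟩ hw) hA1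
  obtain ⟨τ, τ1, τ2⟩ := c1.dat.ov.onto θ (os_θ h)
  obtain ⟨ν₁, ν₂, m, τ3⟩ := cfg_false c1 τ1 τ2 h.θq
  obtain ⟨n, N, n1, n2⟩ := exists_fam c1.dat hS
  have g0 : ∀ M : M3 F, dd true (gx 1 M) (fun j => φ₀ (gx 1 M j, 0)) =
      (G₁ + Mᵀ * G₂ * M.map ⇑(σ * θ)).det := fun M => by
    rw [dd, if_pos rfl]
    congr 1
    ext i j
    simpa [hq] using hm.gram 1 M 1 M i j
  have k : ∀ w : F →+* ℂ, ∃ U : Set (Fin n → ℂ), Rl Γ w → (IsOpen U ∧ U.Nonempty) ∧
      ∀ t : Fin n → F, (∀ i, Fx (stb Γ d) (t i)) → (fun i => w (t i)) ∈ U →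
        (G₁ + (∑ i, t i • N i)ᵀ * G₂ * (∑ i, t i • N i).map ⇑(σ * θ)).det ≠ 0 ∧ ∃ φ ∈ tr ψ Φ,
          ∃ (γ : Gl F) (ε : Bool) (ν₁ ν₂ m : F), Sim6 γ ε ν₁ ν₂ m φ ∧ γ d = -d ∧
            (∀ x, w (γ x) = star (w x)) ∧ (w (dd ε (gx 1 (∑ i, t i • N i))
              (fun j => φ (gx 1 (∑ i, t i • N i) j, 0)) / if ε then ν₂ else ν₁)).re < 0 := by
    intro w
    by_cases hw : Rl Γ w
    swap
    · exact ⟨∅, fun k => absurd k hw⟩
    rcases hw.type h with k1 | k1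
    · have k2 : (w h₂).re < 0 := lt_of_le_of_ne (not_lt.1 fun k2 => hn.2 ⟨w, k1,
        fun φ hφ a b c l m k3 => compact2 h hc.dat s0 t1 t2 hS k1 k2 hφ k3⟩) fun k2 =>
          hS.n2 (w.injective (by rw [hw.eq hS.f2, k2, map_zero, Complex.ofReal_zero]))
      obtain ⟨g, g1, g2⟩ := dd_fam N false τ2 w
      obtain ⟨g', g3, g4⟩ := dd_fam N true k0.semi w
      obtain ⟨b, c, l, k3, k4⟩ := tnf_of_act nfStmt τ3 ((hS.lv3 c1.dat).2 τ τ1 _ τ2 h.θd)
        (hS.anti τ τ1 _ τ2 h.θd) hS.det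
      have k5 : ∀ t : Fin n → F, (∀ i, Fx (stb Γ d) (t i)) →
          (fun i => w (θ (t i))) = star (fun i => w (t i)) ∧
          (fun i => w ((σ * θ) (t i))) = star fun i => w (t i) := fun t ht =>
        ⟨funext fun i => k1 _, funext fun i => by
          rw [os_act h (os_s h) (os_sd h) (ht i), k1, Pi.star_apply]⟩
      refine ⟨{z | (g (z, star z) / w ν₁).re < 0} ∩ {z | g' (z, star z) ≠ 0}, fun _ =>
        ⟨⟨(isOpen_lt (by fun_prop) continuous_const).inter (isOpen_ne_fun (by fun_prop)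
          continuous_const), fun i => w ((0 : Fin n → F) i), ?_, ?_⟩, fun t k6 k7 => ⟨fun k8 => ?_,
          τ, τ1, θ, false, _, _, _, τ3, h.θd, k1, ?_⟩⟩⟩
      · have e : gx 1 (∑ i, (0 : Fin n → F) i • N i) = fun i => pP (Pi.single i 1) := by
          funext i
          rw [← Prod.mk_left_inj (b := (0 : J1 F)), ← ex_gx]
          simp [ex_zero]
        rw [Set.mem_ofPred_eq, ← (k5 0 fun _ => fx_zero).1, ← g2, ← map_div₀, e,
          dd_tnf k3 (by simp) (by apply comm_hz <;> simp), k4, if_neg Bool.false_ne_true,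
          mul_div_cancel_left₀ _ τ3.ne.1, det_diagonal, Fin.prod_univ_three]
        simp only [cons_val, one_mul]
        rw [map_mul, hw.eq hS.f2, Complex.re_mul_ofReal]
        exact mul_neg_of_pos_of_neg (hS.pos w hw) k2
      · rw [Set.mem_ofPred_eq, ← (k5 0 fun _ => fx_zero).2, ← g4, g0]
        simp [hm.d1, hm.ne, hS.n1, hS.n2]
      · exact k7.2 (by rw [← (k5 t k6).2, ← g4, g0, k8, map_zero])
      · rw [map_div₀, g2, (k5 t k6).1]
        exact k7.1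
    obtain ⟨k2, k3, k4, k5, k6⟩ := hm.pos hS (os_s h) k1
    rcases RM.ra _ _ _ k2 k3 k6 k4 with ⟨k7, k8⟩ | ⟨O, k7, k8, k9⟩
    · refine absurd (fun φ hφ l1 x l2 => ?_) hn.1
      have e : ψ.permCongr (ψ.symm.permCongr φ) = φ := ψ.permCongr.apply_symm_apply φ
      obtain ⟨z, l3, l4⟩ := c1.dat.exists_Z6 h0 (symm_mem_tr.2 hφ) k0.semi
        ((MV.semi_congr s0).1 (e.symm ▸ l1))
      obtain ⟨c, c', l5⟩ := mem_Z6.1 l3
      have l6 := sim6_one.2 s0
      obtain ⟨x, rfl⟩ := l6.pr.b1.2 x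
      rw [← l6.inl, ← e, congr_apply, l4, Perm.mul_apply, l5, l6.apply_false, l6.pr.tf,
        tf_smul_right, mul_eq_zero, map_eq_zero, mul_eq_zero] at l2
      rw [compact1 hm hS (os_s h) k1 k7 k8 x
        ((l2.resolve_left s0.ne.2.2).resolve_left (ne_of_scal6 l5).2), l6.pr.s1.zero]
    · refine ⟨_, fun _ => ⟨open_fam n1 w k7 k8, fun t _ l1 => ?_⟩⟩
      have l2 := k9 _ l1
      rw [← map_fam, ← map_G' k1, m3_det_map] at l2
      refine ⟨fun l3 => by simp [l3] at l2, φ₀, h0, _, true, _, _, _, k0, os_sd h, k1, ?_⟩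
      rw [g0, if_pos rfl, map_div₀, k5, Complex.div_ofReal_re]
      exact div_neg_iff.2 (mul_neg_iff.1 (by rwa [mul_comm] at l2))
  choose U hU using k
  obtain ⟨t, l1, l2⟩ := exists_approx h U fun w k => (hU w k).1
  obtain ⟨w, hw⟩ := hw
  obtain ⟨w₀, l3, -, l4⟩ := l2 w hw
  obtain ⟨ψ', p1, p2, p3, p4⟩ := move_M h c1 hS h0 hm (n2 t l1) ((hU w₀ l3).2 t l1 l4).1
  refine not_ani h p3.dat p4 (fun w hw => ?_) ((uiso_tr6 (mem_S6.1 p1) _).symm.ani hA1)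
  obtain ⟨w₀, l3, l5, l4⟩ := l2 w hw
  obtain ⟨-, φ, q1, γ, ε, μ₁, μ₂, _, q2, q3, q4, q5⟩ := (hU w₀ l3).2 t l1 l4
  have q6 := sim6_one.2 (mem_S6.1 p1)
  refine ⟨w₀, l5, _, symm_mem_tr.2 q1, γ, ε, μ₁, μ₂, _, ((q6.symm.comp q2).comp q6).cast (by simp)
    (by simp) (by cases ε <;> simp) (by cases ε <;> simp) rfl, q3, q4, ?_⟩
  rw [← dd_S6 p1]
  simpa only [permCongr_apply, symm_symm, apply_symm_apply, p2, ex_gx] using q5

end Vale.Agent.P011N.Cl.AX
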